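import Vale.Agent.P354E.Main

open Vale.Agent.P354E

namespace Vale.Agent.Results.P354.EMSChristodoulou

/-- Strong cosmic censorship with square integrable Christoffel symbols for the spherically
symmetric Einstein-Maxwell-scalar field system near two-ended subextremal Reissner-Nordstroem
data, against extensions without symmetry. -/
theorem result : ∀ M e om : ℝ, e ≠ 0 → |e| < M → 2 ≤ om → ∃ U : Set (Dset M e om), IsOpen U ∧
    (∃ d ∈ U, d.1 = rn M e) ∧ IsMeagre {d : U | ¬ Good d.1.1} ∧ Dense {d : U | Good d.1.1} :=
  main

end Vale.Agent.Results.P354.EMSChristodoulou
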